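import Vale.Agent.P092.H231.R2
import Vale.Agent.P092.TX.H473.RQ
import Vale.Agent.P092.TX.H45.Tb2

/-!
P092, Team C, all amplifications: copy for the picture `PicX` (existential form of `inv`).
P092 (helper231), TEAM C, wrapper of [C-RES], part 3: the structure `ZFam` from the data `RB` of
Theorem RES (helper473, helper375), in the letters of `RC/Defs`.
-/

set_option linter.all false

open scoped InnerProductSpace ENNReal
open Filter Topology ContinuousLinearMap TopologicalSpace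

namespace Vale.Agent.P092.TX.H231

open Vale.Agent.P092.H231

open Vale.Agent.P092.RC Vale.Agent.P092.H820
open Vale.Agent.P092.SR (CO)
open Vale.Agent.P092.H200.Sheet (Dat Sh Lev tr al be)
open Vale.Agent.P092.H175.T1 (MinP)
open Vale.Agent.P092.H375 (RB sym)
open Vale.Agent.P092.H473.Res (GrpH)
open Vale.Agent.P092.TX.H473.RQ

variable {G Γ Y G₀ K : Type} [Group G] [TopologicalSpace G] [Group Γ] [TopologicalSpace Y]
  [MulAction G Y] [Group G₀] [TopologicalSpace G₀] [NormedAddCommGroup K] [InnerProductSpace ℂ K]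
  [CompleteSpace K] [ContinuousConstSMul G Y] [MulAction Γ Y] [ContinuousConstSMul Γ Y]

variable {π : G →* (K →L[ℂ] K)} {lam : Γ →* (K →L[ℂ] K)} {W W' : Set (K →L[ℂ] K)} {Ω : K}
  {q : Γ →* G} {c : G → Y → G₀} {y₀ : Y} {E : Clopens Y → (K →L[ℂ] K)} {U : Subgroup G₀}
  {a : G₀ → (K →L[ℂ] K)} {Kn : ℕ → Subgroup G₀} {p n : ℕ}

/-- the double translate of a compact open subgroup -/
theorem co_box [CompactSpace Y] [IsTopologicalGroup G₀] (hU : SR.COS U) (B : Clopens Y)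
    (h t : G₀) : CO ((B : Set Y) ×ˢ {x : G₀ | ∃ u ∈ U, x = h * u * t}) := by
  have h1 : {x : G₀ | ∃ u ∈ U, x = h * u * t} = (fun u => h * u * t) '' (U : Set G₀) := by
    ext x
    constructor
    · rintro ⟨u, hu, rfl⟩
      exact ⟨u, hu, rfl⟩
    · rintro ⟨u, hu, rfl⟩
      exact ⟨u, hu, rfl⟩
  have h2 : {x : G₀ | ∃ u ∈ U, x = h * u * t} = (fun x => h⁻¹ * x * t⁻¹) ⁻¹' (U : Set G₀) := by
    ext x
    constructor
    · rintro ⟨u, hu, rfl⟩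
      change h⁻¹ * (h * u * t) * t⁻¹ ∈ U
      have h3 : h⁻¹ * (h * u * t) * t⁻¹ = u := by group
      rwa [h3]
    · intro hx
      refine ⟨h⁻¹ * x * t⁻¹, hx, ?_⟩
      group
  constructor
  · rw [h1]
    exact B.isClopen.isClosed.isCompact.prod (hU.1.image (by fun_prop))
  · refine B.isClopen.isOpen.prod ?_
    rw [h2]
    exact hU.2.preimage (by fun_prop)

section zt

variable {lam : Γ →* (K →L[ℂ] K)} {E : Clopens Y → (K →L[ℂ] K)} {S : Set (K →L[ℂ] K)}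
  {c' : Γ → Y → G₀} {a₁ : ℕ} {x : ℕ → G₀ → (K →L[ℂ] K)}

theorem zt_isZ [IsTopologicalGroup G₀] [T2Space Y] [T2Space G₀] (hT : Tor lam E S c' Kn a₁ x)
    {C : Set (Y × G₀)} (hC : CO C) : IsZ E a₁ x C (Zt E a₁ x C) :=
  hT.isZ_zt (hT.exists_isZ hC.1 hC.2)

theorem zt_adj [IsTopologicalGroup G₀] [T2Space Y] [T2Space G₀] (hT : Tor lam E S c' Kn a₁ x)
    {C : Set (Y × G₀)} (hC : CO C) : adjoint (Zt E a₁ x C) = Zt E a₁ x C :=
  (hT.zt_eq (hT.isZ_star (zt_isZ hT hC))).symm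

theorem zt_nondeg [IsTopologicalGroup G₀] [CompactSpace Y] [T2Space Y] [T2Space G₀]
    (hT : Tor lam E S c' Kn a₁ x) (hcpt : ∀ m, IsCompact (Kn m : Set G₀)) (ζ : K)
    (hζ : ∀ C, CO C → Zt E a₁ x C ζ = 0) : ζ = 0 := by
  obtain ⟨T, hTd⟩ : ∃ T : K →L[ℂ] K, T = (innerSL ℂ ζ).smulRight ζ := ⟨_, rfl⟩
  have hTa : ∀ ξ, T ξ = ⟪ζ, ξ⟫_ℂ • ζ := fun ξ => by rw [hTd]; rfl
  have h1 : T = 0 := by
    refine hT.nondeg hcpt fun C hC hCo => ?_
    ext ξ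
    change T (Zt E a₁ x C ξ) = 0
    rw [hTa, ← adjoint_inner_left, zt_adj hT ⟨hC, hCo⟩, hζ C ⟨hC, hCo⟩, inner_zero_left,
      zero_smul]
  have h2 : T ζ = 0 := by rw [h1]; rfl
  rw [hTa] at h2
  rcases smul_eq_zero.1 h2 with h3 | h3
  · exact inner_self_eq_zero.1 h3
  · exact h3

theorem zt_cm [IsTopologicalGroup G₀] [T2Space Y] [T2Space G₀] (hT : Tor lam E S c' Kn a₁ x)
    {w : K →L[ℂ] K} (hw : w ∈ S) (hwE : ∀ A, w * E A = E A * w) {C : Set (Y × G₀)}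
    (hC : CO C) : Zt E a₁ x C * w = w * Zt E a₁ x C :=
  (hT.isZ_comm (zt_isZ hT hC) hwE fun m hm g => (hT.sh m hm).comm g w hw).symm

theorem zt_base [IsTopologicalGroup G₀] [T2Space Y] [T2Space G₀] (hT : Tor lam E S c' Kn a₁ x)
    (B : Clopens Y) {C : Set (Y × G₀)} (hC : CO C) :
    Zt E a₁ x C * E B = Zt E a₁ x (C ∩ Prod.fst ⁻¹' (B : Set Y)) := by
  have h1 := hT.isZ_mul ⟨hC.1.isClosed, hC.2⟩ (B.isClopen.prod isClopen_univ) (zt_isZ hT hC)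
    (hT.isZ_E B)
  have h2 : C ∩ ((B : Set Y) ×ˢ (Set.univ : Set G₀)) = C ∩ Prod.fst ⁻¹' (B : Set Y) := by
    ext z
    simp
  rw [h2] at h1
  exact (hT.zt_eq h1).symm

end zt

section fields

variable {a₁ n₁ m₀ : ℕ} {f : G₀ → (K →L[ℂ] K)} {x : ℕ → G₀ → (K →L[ℂ] K)} {S : Set (K →L[ℂ] K)}

theorem zt_cov [IsTopologicalGroup G₀] [CompactSpace Y] [T2Space Y] [T2Space G₀] {H₀ : Type}
    [Group H₀] {π₀ : H₀ →* (K →L[ℂ] K)}
    (hq : ∀ (γ : Γ) (y : Y), γ • y = q γ • y) (hlev : Lev Kn)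
    (hD : Dat lam E S π₀ (fun γ y => c (q γ) y))
    (hT : Tor lam E S (fun γ y => c (q γ) y) Kn a₁ x) (γ : Γ) {C : Set (Y × G₀)} (hC : CO C) :
    lam γ * Zt E a₁ x C * lam γ⁻¹ = Zt E a₁ x (zact c (q γ) '' C) := by
  obtain ⟨n₀, -, hinv⟩ := exists_level hlev a₁ hC.1 hC.2
  have h1 := hT.isZ_lam hD ⟨hC.1.isClosed, hC.2⟩ hinv (zt_isZ hT hC) γ
  have h2 : zl (fun γ y => c (q γ) y) γ C = zact c (q γ) '' C := by
    rw [zl_eq_image]
    refine Set.image_congr fun z _ => ?_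
    rw [hq]
    rfl
  rw [h2] at h1
  exact (hT.zt_eq h1).symm

theorem zt_par [IsTopologicalGroup G₀] [T2Space Y] [T2Space G₀] {H₀ : Type}
    [Group H₀] {π₀ : H₀ →* (K →L[ℂ] K)} {c' : Γ → Y → G₀} (hD : Dat lam E S π₀ c')
    (hT : Tor lam E S c' Kn a₁ x) (w : H₀) (t : G₀)
    (hw : ∀ m, a₁ ≤ m → ∃ M₀, m ≤ M₀ ∧ ∀ M, M₀ ≤ M → ∀ g,
      π₀ w * x m (g * t) * π₀ w⁻¹ * x M g = x M g) {C : Set (Y × G₀)} (hC : CO C) :
    π₀ w * Zt E a₁ x C * π₀ w⁻¹ = Zt E a₁ x ((fun z => RC.zr z t⁻¹) '' C) := by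
  have h1 := hT.isZ_pi hD w t hw ⟨hC.1.isClosed, hC.2⟩ (zt_isZ hT hC)
  rw [zr_eq_image] at h1
  exact (hT.zt_eq h1).symm

/-- the set `B ×ˢ h U t` -/
theorem zt_max [IsTopologicalGroup G₀] [CompactSpace Y] [T2Space Y] [T2Space G₀]
    {c' : Γ → Y → G₀} (hT : Tor lam E S c' Kn a₁ x) (hU : SR.COS U) {b : G₀ → (K →L[ℂ] K)}
    (hbE : ∀ h C, b h * E C = E C * b h) {φ : ℂ} {t : G₀} {M₀ : ℕ}
    (hM₀ : ∀ M, M₀ ≤ M → ∀ g, ∀ u ∈ U, b g * x M (g * u * t) = φ • x M (g * u * t))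
    (B : Clopens Y) (h : G₀) :
    b h * Zt E a₁ x ((B : Set Y) ×ˢ {x | ∃ u ∈ U, x = h * u * t}) =
      φ • Zt E a₁ x ((B : Set Y) ×ˢ {x | ∃ u ∈ U, x = h * u * t}) := by
  have hCO := co_box hU B h t
  refine hT.max_of' (M₀ := M₀) (zt_isZ hT hCO) (fun A => hbE h A) fun M hM g => ?_
  by_cases hg : ∃ u ∈ U, g = h * u * t
  · right
    obtain ⟨u, hu, rfl⟩ := hg
    exact hM₀ M hM h u hu
  · left
    ext y
    change y ∈ slc _ g ↔ False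
    rw [mem_slc ⟨hCO.1.isClosed, hCO.2⟩]
    exact ⟨fun hy => hg hy.2, False.elim⟩

/-- continuity of a homomorphism given by levels -/
theorem theta_cont {H₀ : Type} [Group H₀] [TopologicalSpace H₀] [IsTopologicalGroup H₀]
    [IsTopologicalGroup G₀] {θ : H₀ →* G₀} {Wm : ℕ → Subgroup H₀}
    (hW : ∀ m, IsOpen (Wm m : Set H₀)) (hbas : ∀ V ∈ 𝓝 (1 : G₀), ∃ m, (Kn m : Set G₀) ⊆ V)
    (h3 : ∀ N, ∃ M, ∀ w ∈ Wm M, θ w ∈ Kn N) : Continuous θ := by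
  refine continuous_of_continuousAt_one θ ?_
  rw [ContinuousAt, map_one]
  intro V hV
  obtain ⟨N, hN⟩ := hbas V hV
  obtain ⟨M, hM⟩ := h3 N
  rw [mem_map]
  refine mem_of_superset ((hW M).mem_nhds (one_mem _)) fun w hw => ?_
  exact hN (hM w hw)

theorem comm_of_conj {g : G} {T : K →L[ℂ] K} (h2 : π g * T * π g⁻¹ = T) : π g * T = T * π g := by
  calc π g * T = π g * T * (π g⁻¹ * π g) := by
        rw [← map_mul, inv_mul_cancel, map_one, mul_one]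
    _ = π g * T * π g⁻¹ * π g := by simp only [mul_assoc]
    _ = T * π g := by rw [h2]

theorem zt_tb [CompactSpace Y] [T2Space Y] [T2Space G₀] [IsTopologicalGroup G₀] {H₀ : Type}
    [Group H₀] {π₀ : H₀ →* (K →L[ℂ] K)} {c' : Γ → Y → G₀} {Wm Wm' : ℕ → Subgroup H₀}
    (hP : PicX π lam W Ω) (hL : Lim π lam W q y₀ E) (hX : Ext π lam W W' y₀ E)
    (hA : Hat π lam W' Ω q c y₀ E U a)
    (hD : Dat lam E (SS π W' c y₀) π₀ c') (hlev : Lev Kn)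
    {a₁ n₁ m₀ : ℕ} {f : G₀ → (K →L[ℂ] K)} {x : ℕ → G₀ → (K →L[ℂ] K)}
    (hRB : RB al (be π₀ hD.pi_star) (hD.P Kn Wm) Kn Wm' p n a₁ n₁ m₀ f x)
    (haP : a ∈ hD.P Kn Wm) (hT : Tor lam E (SS π W' c y₀) c' Kn a₁ x)
    {g : G} (hg : g • y₀ ≠ y₀) {C C' : Set (Y × G₀)} (hC : CO C) (hC' : CO C')
    (hd : Disjoint (Prod.fst '' C) (Prod.fst '' C')) :
    TRN lam Ω (π g * Zt E a₁ x C' * π g⁻¹ * Zt E a₁ x C) < ∞ := by
  have heig := heig_of hD hlev hRB haP hA.ne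
  have hx : ∀ m, a₁ ≤ m → ∀ g, Cm W (x m g) := fun m hm g w hw =>
    ((hT.sh m hm).comm g w (Or.inl (hX.sub hw))).symm
  exact H45.tb_zt hP hL hX.sub hA hT hx heig hg hC hC' hd

end fields

/-- **The family `ZFam` from the data `RB`.** -/
theorem zfam_of (hq : ∀ (γ : Γ) (y : Y), γ • y = q γ • y) (hG : Geo c y₀) (hP : PicX π lam W Ω)
    (hL : Lim π lam W q y₀ E) (hX : Ext π lam W W' y₀ E) (hK : GrpH p n Kn)
    (hA : Hat π lam W' Ω q c y₀ E U a)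
    (hD : Dat lam E (SS π W' c y₀) (πs π y₀) (fun γ y => c (q γ) y))
    {a₁ n₁ m₀ : ℕ} {f : G₀ → (K →L[ℂ] K)} {x : ℕ → G₀ → (K →L[ℂ] K)}
    (hRB : RB al (be (πs π y₀) hD.pi_star)
      (hD.P Kn (Wn hG Kn)) Kn (Wn hG Kn) p n a₁ n₁ m₀ f x)
    (hact : ∀ w, ∀ b ∈ hD.P Kn (Wn hG Kn), be (πs π y₀) hD.pi_star w b ∈ hD.P Kn (Wn hG Kn))
    (hrad : ∀ r, prj hG r = 1 → ∀ b ∈ hD.P Kn (Wn hG Kn), be (πs π y₀) hD.pi_star r b = b)
    (haP : a ∈ hD.P Kn (Wn hG Kn))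
    (hmem : ∀ (U' : Subgroup G₀) (b : G₀ → (K →L[ℂ] K)), SR.COS U' →
      Res π lam W' q c y₀ E U' b → (∃ V : Subgroup G, IsOpen (V : Set G) ∧ ∀ p ∈ V, p • y₀ = y₀ →
          ∀ h, π p * b h = b h * π p) → b ∈ hD.P Kn (Wn hG Kn))
    (hker : ∀ r : G, r • y₀ = y₀ → c r y₀ ≠ 1 → ¬ ∀ (U' : Subgroup G₀) (b : G₀ → (K →L[ℂ] K)),
      SR.COS U' → Res π lam W' q c y₀ E U' b →
        (∃ V : Subgroup G, IsOpen (V : Set G) ∧ ∀ p ∈ V, p • y₀ = y₀ →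
          ∀ h, π p * b h = b h * π p) → ∀ h, π r * b h = b h * π r) :
    ∃ (δ : G → G₀) (Q : Set (Y × G₀) → (K →L[ℂ] K)), ZFam π lam W' Ω q c y₀ E δ Q := by
  classical
  haveI := hG.tg
  haveI := hG.tg₀
  haveI := hG.cpt
  haveI := hG.t2
  haveI := hG.t2₀
  have hlev : Lev Kn := lev_of hK
  have hT : Tor lam E (SS π W' c y₀) (fun γ y => c (q γ) y) Kn a₁ x := tor_of hD hlev hRB
  obtain ⟨θ, hθ1, hθ2, hθ3, -⟩ := hRB.exists_theta (comm_of hD hlev hRB) (hE_of hD hlev hRB) hact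
  have hθc : Continuous θ :=
    theta_cont (fun m => (hK.opn m).preimage (prj_cont hG)) hK.bas hθ3
  obtain ⟨δ, hδ⟩ : ∃ δ : G → G₀, δ = fun g => if h : g • y₀ = y₀ then θ ⟨g, h⟩ else 1 := ⟨_, rfl⟩
  have hδe : ∀ (g : G) (h : g • y₀ = y₀), δ g = θ ⟨g, h⟩ := fun g h => by
    rw [hδ]
    exact dif_pos h
  refine ⟨δ, Zt E a₁ x,
    { adj := fun C hC => zt_adj hT hC
      mul := fun C D hC hD' => (hT.zt_eq (hT.isZ_mul ⟨hC.1.isClosed, hC.2⟩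
        ⟨hD'.1.isClosed, hD'.2⟩ (zt_isZ hT hC) (zt_isZ hT hD'))).symm
      add := fun C D hC hD' hCD => hT.zt_eq (hT.isZ_add ⟨hC.1.isClosed, hC.2⟩
        ⟨hD'.1.isClosed, hD'.2⟩ hCD (zt_isZ hT hC) (zt_isZ hT hD'))
      nondeg := fun ζ hζ => zt_nondeg hT hK.cpt ζ hζ
      cm := fun C hC w hw => zt_cm hT (Or.inl hw) (fun A => hD.S_E w (Or.inl hw) A) hC
      cov := fun γ C hC => zt_cov hq hlev hD hT γ hC
      par := ?_
      base := fun B C hC => zt_base hT B hC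
      δmul := ?_
      δker := ?_
      δcont := ?_
      tb := ?_
      max := ?_ }⟩
  · -- par
    intro p hp C hC
    rw [hδe p hp]
    exact zt_par hD hT (⟨p, hp⟩ : (St y₀ : Subgroup G)) (θ ⟨p, hp⟩)
      (hw_of hD hlev hRB (fun y hy k => hθ1 _ y hy k) fun y hy => hact _ y hy) hC
  · -- δmul
    intro p p' hp hp'
    have hpp : (p * p') • y₀ = y₀ := by rw [mul_smul, hp', hp]
    rw [hδe _ hpp, hδe _ hp, hδe _ hp', ← map_mul]
    rfl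
  · -- δker
    intro p hp
    rw [hδe _ hp, ← hθ2]
    constructor
    · intro h1
      by_contra hne
      refine hker p hp hne fun U' b hU' hb hs h => ?_
      exact comm_of_conj (congrFun (h1 b (hmem U' b hU' hb hs)) h)
    · intro h1 y hy
      exact hrad ⟨p, hp⟩ h1 y hy
  · -- δcont
    have h1 : (fun p : {p : G // p • y₀ = y₀} => δ p) =
        fun p : {p : G // p • y₀ = y₀} => θ ⟨p.1, p.2⟩ := by
      funext p
      exact hδe p.1 p.2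
    rw [h1]
    exact hθc.comp (continuous_subtype_val.subtype_mk _)
  · -- tb
    intro g hg C C' hC hC' hd
    exact zt_tb hP hL hX hA hD hlev hRB haP hT hg hC hC' hd
  · -- max
    intro U' hU' b hb hs
    obtain ⟨φ, hφ⟩ := exists_phi hD hlev hRB (hmem U' b hU' hb hs) hb.rinv
    refine ⟨φ, fun B h t => ?_⟩
    obtain ⟨M₀, hM₀⟩ := hφ t
    exact zt_max hT hU' hb.cE hM₀ B h

end Vale.Agent.P092.TX.H231
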